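import Mathlib

namespace Vale.Agent.P194

open MonoidAlgebra

variable {K G : Type*} [CommRing K] [Group G]

/-- `a` is supported in the subgroup `H` -/
def SuppIn (H : Subgroup G) (a : MonoidAlgebra K G) : Prop := ∀ g, a.coeff g ≠ 0 → g ∈ H

open Classical in
/-- restriction of the support to a subgroup -/
noncomputable def cut (H : Subgroup G) (b : MonoidAlgebra K G) : MonoidAlgebra K G :=
  MonoidAlgebra.ofCoeff (b.coeff.filter (fun g => g ∈ H))

open Classical in
theorem cut_coeff (H : Subgroup G) (b : MonoidAlgebra K G) (g : G) :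
    (cut H b).coeff g = if g ∈ H then b.coeff g else 0 := by
  unfold cut
  rw [coeff_ofCoeff, Finsupp.filter_apply]

theorem cut_suppIn (H : Subgroup G) (b : MonoidAlgebra K G) : SuppIn H (cut H b) := by
  intro g hg
  rw [cut_coeff] at hg
  by_contra h
  simp [h] at hg

theorem cut_mul_left (H : Subgroup G) {a : MonoidAlgebra K G} (ha : SuppIn H a)
    (b : MonoidAlgebra K G) : cut H (a * b) = a * cut H b := by
  classical
  apply MonoidAlgebra.ext
  apply Finsupp.ext
  intro g
  rw [cut_coeff, coeff_mul_apply_left, coeff_mul_apply_left]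
  unfold Finsupp.sum
  by_cases hg : g ∈ H
  · rw [if_pos hg]
    apply Finset.sum_congr rfl
    intro h hh
    have hhH : h ∈ H := ha h (Finsupp.mem_support_iff.1 hh)
    beta_reduce
    rw [cut_coeff, if_pos (H.mul_mem (H.inv_mem hhH) hg)]
  · rw [if_neg hg]
    symm
    apply Finset.sum_eq_zero
    intro h hh
    have hhH : h ∈ H := ha h (Finsupp.mem_support_iff.1 hh)
    have : h⁻¹ * g ∉ H := by
      intro hc
      apply hg
      have := H.mul_mem hhH hc
      simpa using this
    beta_reduce
    rw [cut_coeff, if_neg this, mul_zero]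

theorem cut_mul_right (H : Subgroup G) (a : MonoidAlgebra K G) {b : MonoidAlgebra K G}
    (hb : SuppIn H b) : cut H (a * b) = cut H a * b := by
  classical
  apply MonoidAlgebra.ext
  apply Finsupp.ext
  intro g
  rw [cut_coeff, coeff_mul_apply_right, coeff_mul_apply_right]
  unfold Finsupp.sum
  by_cases hg : g ∈ H
  · rw [if_pos hg]
    apply Finset.sum_congr rfl
    intro h hh
    have hhH : h ∈ H := hb h (Finsupp.mem_support_iff.1 hh)
    beta_reduce
    rw [cut_coeff, if_pos (H.mul_mem hg (H.inv_mem hhH))]
  · rw [if_neg hg]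
    symm
    apply Finset.sum_eq_zero
    intro h hh
    have hhH : h ∈ H := hb h (Finsupp.mem_support_iff.1 hh)
    have : g * h⁻¹ ∉ H := by
      intro hc
      apply hg
      have := H.mul_mem hc hhH
      simpa using this
    beta_reduce
    rw [cut_coeff, if_neg this, zero_mul]

theorem cut_of_suppIn (H : Subgroup G) {a : MonoidAlgebra K G} (ha : SuppIn H a) :
    cut H a = a := by
  classical
  apply MonoidAlgebra.ext
  apply Finsupp.ext
  intro g
  rw [cut_coeff]
  by_cases hg : g ∈ H
  · rw [if_pos hg]
  · rw [if_neg hg]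
    by_contra h
    exact hg (ha g (fun h0 => h h0.symm))

theorem one_suppIn (H : Subgroup G) : SuppIn H (1 : MonoidAlgebra K G) := by
  classical
  intro g hg
  by_contra h
  apply hg
  have hne : g ≠ 1 := fun h1 => h (h1 ▸ H.one_mem)
  rw [MonoidAlgebra.one_def]
  simp [MonoidAlgebra.coeff_single, hne.symm]

/-- elements whose supports commute elementwise commute -/
theorem mul_comm_of_supp {x y : MonoidAlgebra K G}
    (h : ∀ g k, x.coeff g ≠ 0 → y.coeff k ≠ 0 → g * k = k * g) : x * y = y * x := by
  apply MonoidAlgebra.ext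
  apply Finsupp.ext
  intro g
  rw [coeff_mul_apply_left, coeff_mul_apply_right]
  unfold Finsupp.sum
  apply Finset.sum_congr rfl
  intro k hk
  have hk0 : x.coeff k ≠ 0 := Finsupp.mem_support_iff.1 hk
  have key : y.coeff (k⁻¹ * g) = y.coeff (g * k⁻¹) := by
    by_cases h1 : y.coeff (k⁻¹ * g) = 0
    · by_cases h2 : y.coeff (g * k⁻¹) = 0
      · rw [h1, h2]
      · have := h k _ hk0 h2
        have e : k⁻¹ * g = g * k⁻¹ := by
          have e1 : k * (g * k⁻¹) = g := by rw [this]; group
          calc k⁻¹ * g = k⁻¹ * (k * (g * k⁻¹)) := by rw [e1]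
            _ = g * k⁻¹ := by group
        rw [e]
    · have := h k _ hk0 h1
      have e : g * k⁻¹ = k⁻¹ * g := by
        have e1 : (k⁻¹ * g) * k = g := by rw [← this]; group
        calc g * k⁻¹ = ((k⁻¹ * g) * k) * k⁻¹ := by rw [e1]
          _ = k⁻¹ * g := by group
      rw [e]
  beta_reduce
  rw [key, mul_comm]

/-- one-sided locality of direct finiteness -/
theorem local_df (H : Subgroup G)
    (hH : ∀ x y : MonoidAlgebra K G, SuppIn H x → SuppIn H y → x * y = 1 → y * x = 1)
    (a b : MonoidAlgebra K G) (hs : SuppIn H a ∨ SuppIn H b) (hab : a * b = 1) : b * a = 1 := by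
  rcases hs with ha | hb
  · have h1 : a * cut H b = 1 := by
      rw [← cut_mul_left H ha, hab, cut_of_suppIn H (one_suppIn H)]
    have h2 : cut H b * a = 1 := hH _ _ ha (cut_suppIn H b) h1
    have h3 : b = cut H b := by
      calc b = (cut H b * a) * b := by rw [h2, one_mul]
        _ = cut H b * (a * b) := by rw [mul_assoc]
        _ = cut H b := by rw [hab, mul_one]
    rw [h3]; exact h2
  · have h1 : cut H a * b = 1 := by
      rw [← cut_mul_right H a hb, hab, cut_of_suppIn H (one_suppIn H)]
    have h2 : b * cut H a = 1 := hH _ _ (cut_suppIn H a) hb h1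
    have h3 : a = cut H a := by
      calc a = a * (b * cut H a) := by rw [h2, mul_one]
        _ = (a * b) * cut H a := by rw [mul_assoc]
        _ = cut H a := by rw [hab, one_mul]
    rw [h3]; exact h2

/-- unconditional case: commuting support -/
theorem comm_supp_df (a b : MonoidAlgebra K G)
    (hc : (∀ g k, a.coeff g ≠ 0 → a.coeff k ≠ 0 → g * k = k * g) ∨
      (∀ g k, b.coeff g ≠ 0 → b.coeff k ≠ 0 → g * k = k * g))
    (hab : a * b = 1) : b * a = 1 := by
  -- double centralizer of the support
  have main : ∀ c : MonoidAlgebra K G,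
      (∀ g k, c.coeff g ≠ 0 → c.coeff k ≠ 0 → g * k = k * g) →
      ∃ H : Subgroup G, SuppIn H c ∧ ∀ g ∈ H, ∀ k ∈ H, g * k = k * g := by
    intro c hcc
    let S : Set G := {g | c.coeff g ≠ 0}
    let Z : Subgroup G := Subgroup.centralizer S
    refine ⟨Subgroup.centralizer (Z : Set G), ?_, ?_⟩
    · intro g hg
      rw [Subgroup.mem_centralizer_iff]
      intro z hz
      have hz' : z ∈ Subgroup.centralizer S := hz
      rw [Subgroup.mem_centralizer_iff] at hz'
      exact (hz' g hg).symm
    · intro g hg k hk
      rw [Subgroup.mem_centralizer_iff] at hg hk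
      have hkZ : k ∈ Z := by
        show k ∈ Subgroup.centralizer S
        rw [Subgroup.mem_centralizer_iff]
        intro s hs
        have hsZ : s ∈ Z := by
          show s ∈ Subgroup.centralizer S
          rw [Subgroup.mem_centralizer_iff]
          intro t ht
          exact hcc t s ht hs
        exact hk s hsZ
      exact (hg k hkZ).symm
  rcases hc with hc | hc
  · obtain ⟨H, hs, hcomm⟩ := main a hc
    refine local_df H ?_ a b (Or.inl hs) hab
    intro x y hx hy hxy
    rw [← mul_comm_of_supp (fun g k hg hk => hcomm g (hx g hg) k (hy k hk))]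
    exact hxy
  · obtain ⟨H, hs, hcomm⟩ := main b hc
    refine local_df H ?_ a b (Or.inr hs) hab
    intro x y hx hy hxy
    rw [← mul_comm_of_supp (fun g k hg hk => hcomm g (hx g hg) k (hy k hk))]
    exact hxy

/-- one-sided locality of the zero divisor property -/
theorem local_zd (H : Subgroup G)
    (hH : ∀ x y : MonoidAlgebra K G, SuppIn H x → SuppIn H y → x * y = 0 → x = 0 ∨ y = 0)
    (a b : MonoidAlgebra K G) (ha : SuppIn H a) (hab : a * b = 0) : a = 0 ∨ b = 0 := by
  classical
  by_contra hcon
  rw [not_or] at hcon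
  obtain ⟨ha0, hb0⟩ := hcon
  have : ∃ g, b.coeff g ≠ 0 := by
    by_contra hno
    apply hb0
    apply MonoidAlgebra.ext
    apply Finsupp.ext
    intro g
    by_contra hg
    exact hno ⟨g, hg⟩
  obtain ⟨g, hg⟩ := this
  set b' := b * MonoidAlgebra.single g⁻¹ (1 : K) with hb'
  have h1 : b'.coeff 1 = b.coeff g := by
    rw [hb', coeff_mul_single_apply]; simp
  have h2 : a * b' = 0 := by rw [hb', ← mul_assoc, hab, zero_mul]
  have h3 : a * cut H b' = 0 := by
    rw [← cut_mul_left H ha, h2]
    apply MonoidAlgebra.ext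
    apply Finsupp.ext
    intro k
    rw [cut_coeff]
    simp
  rcases hH _ _ ha (cut_suppIn H b') h3 with h | h
  · exact ha0 h
  · have : (cut H b').coeff 1 = 0 := by rw [h]; simp
    rw [cut_coeff, if_pos H.one_mem, h1] at this
    exact hg this

end Vale.Agent.P194
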